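import Vale.Agent.Lib.P256.Main

namespace Vale.Agent.Results.P256.DerivQuadLin

open MvPolynomial Vale.Agent.Lib.P256

/-- Let `p` be a product of quadratic forms `Q i` and linear forms `L j`, each hyperbolic with
respect to `e`. Then the hyperbolicity cone of the Renegar derivative `D_e p`, that is the set
of `x` such that every root of `t ↦ (D_e p) (t e - x)` is nonnegative, is a spectrahedral
shadow. -/
theorem result (n k m : ℕ) (e : Fin n → ℝ) (Q : Fin k → MvPolynomial (Fin n) ℝ)
    (L : Fin m → MvPolynomial (Fin n) ℝ)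
    (hQ : ∀ i, (Q i).IsHomogeneous 2 ∧ IsHyperbolic (Q i) e)
    (hL : ∀ j, (L j).IsHomogeneous 1 ∧ IsHyperbolic (L j) e) :
    IsSpectrahedralShadow (hypCone (dirDeriv e ((∏ i, Q i) * ∏ j, L j)) e) :=
  main_shadow e Q L hQ hL

end Vale.Agent.Results.P256.DerivQuadLin
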