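import Vale.Agent.Lib.P256.Main

namespace Vale.Agent.Results.P256.RenegarDerivQuadLin

open MvPolynomial Vale.Agent.Lib.P256

/-- Let `p` be a product of `k` quadratic forms `Q i` and `m` linear forms `L j`, each hyperbolic
with respect to `e`, with `k + m > 0`. Then the Renegar derivative `D_e p` is hyperbolic with
respect to `e`, and its hyperbolicity cone is a spectrahedral shadow. -/
theorem result (n k m : ℕ) (hkm : 0 < k + m) (e : Fin n → ℝ)
    (Q : Fin k → MvPolynomial (Fin n) ℝ) (L : Fin m → MvPolynomial (Fin n) ℝ)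
    (hQ : ∀ i, (Q i).IsHomogeneous 2 ∧ IsHyperbolic (Q i) e)
    (hL : ∀ j, (L j).IsHomogeneous 1 ∧ IsHyperbolic (L j) e) :
    IsHyperbolic (dirDeriv e ((∏ i, Q i) * ∏ j, L j)) e ∧
      IsSpectrahedralShadow (hypCone (dirDeriv e ((∏ i, Q i) * ∏ j, L j)) e) :=
  ⟨main_hyperbolic hkm e Q L hQ hL, main_shadow e Q L hQ hL⟩

end Vale.Agent.Results.P256.RenegarDerivQuadLin
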